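import Vale.Agent.P087L14.Final

namespace Vale.Agent.Results.P087.ALiteral

open Vale.Agent.P087L14 MeasureTheory
open scoped TensorProduct

/-- Microstates and nonmicrostates free entropy differ, with all notions as in the problem text.
(1) Q1 is false. (2) For every `n ≥ 10 ^ 50` some `n`-tuple has `-∞ < χ(X) < χ^*(X) < ∞`, with a gap
of at least `10⁻²⁵ n`. (3) `vol` is the Lebesgue measure in every chart that is orthonormal for
`Tr(AB)`, and there is one. (4) The formula for `∂_j` on monomials. (5) The pairing `τ(ξ a)`, the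
criterion for the existence of conjugate variables, and the independence of `χ^*(X)` of the choice
of the semicircular family and of the algebra that contains it. -/
theorem result : ¬ Q1 ∧ (∀ n : ℕ, 10 ^ 50 ≤ n → Gap n (1 / 10 ^ 25 * n)) ∧
    (∀ n k : ℕ, IsChart (chart n k) ∧
      ∀ e, IsChart e → ∀ Γ : Set (Tup n k), vol Γ = volume (e ⁻¹' Γ)) ∧
    (∀ (n : ℕ) (j : Fin n) (w : List (Fin n)), dq j (mono w) = ∑ l : Fin w.length,
      if w.get l = j then mono (w.take l) ⊗ₜ mono (w.drop (l + 1)) else 0) ∧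
    ∀ (A H : Type) [Ring A] [StarRing A] [Algebra ℂ A] [StarModule ℂ A] [NormedAddCommGroup H]
      [InnerProductSpace ℂ H] [CompleteSpace H] (T : Tracial A H) (n : ℕ) (X : Fin n → A),
      (∀ j, IsSelfAdjoint (X j)) →
      T.Bridge X ∧ ∀ S, T.FreeSemi X S → T.WellDef X S → T.Indep X S :=
  ⟨not_q1, gap, fun _ _ => ⟨chart_isChart, fun _ he Γ => chart_indep chart_isChart he Γ⟩,
    fun _ => dq_mono, fun _ _ _ _ _ _ _ _ _ T _ _ hX => ⟨bridge T hX, fun _ => indep T hX⟩⟩

end Vale.Agent.Results.P087.ALiteral
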